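import Vale.Agent.P040.MathlibUsed

/-!
# Geodesic drawings of graphs on the sphere
-/

namespace Vale.Agent.P040

/-- Euclidean space of dimension three. -/
abbrev E3 := EuclideanSpace ℝ (Fin 3)

/-- The shortest great-circle arc joining two points `p` and `q ≠ -p` of the unit sphere. -/
def geodArc (p q : E3) : Set E3 :=
  {x | ‖x‖ = 1 ∧ ∃ s t : ℝ, 0 ≤ s ∧ 0 ≤ t ∧ x = s • p + t • q}

/-- The arc of an edge when the vertices are placed at the points `pos`. -/
def edgeArc {V : Type} (pos : V → E3) (e : Sym2 V) : Set E3 :=
  {x | ∃ u v, e = s(u, v) ∧ x ∈ geodArc (pos u) (pos v)}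

/-- A geodesic drawing of the graph `G` on the unit sphere: every edge is the shortest
great-circle arc between its ends. -/
structure GeodesicDrawing {V : Type} (G : SimpleGraph V) where
  /-- the positions of the vertices, distinct points of the unit sphere -/
  pos : V → E3
  norm_pos : ∀ v, ‖pos v‖ = 1
  pos_inj : Function.Injective pos
  /-- adjacent vertices are not antipodal -/
  not_antipodal : ∀ u v, G.Adj u v → pos u ≠ - pos v
  /-- an edge contains no vertex other than its ends -/
  avoid : ∀ e ∈ G.edgeSet, ∀ w, pos w ∈ edgeArc pos e → w ∈ e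
  /-- the interiors of two edges meet in finitely many points (arcs of two different great
  circles meeting in a common interior point cross there) -/
  finite : ∀ e ∈ G.edgeSet, ∀ f ∈ G.edgeSet, e ≠ f →
    ((edgeArc pos e \ Set.range pos) ∩ (edgeArc pos f \ Set.range pos)).Finite
  /-- each crossing point lies on exactly two edges -/
  two : ∀ e ∈ G.edgeSet, ∀ f ∈ G.edgeSet, ∀ g ∈ G.edgeSet, e ≠ f → e ≠ g → f ≠ g →
    ∀ x, x ∉ Set.range pos → x ∈ edgeArc pos e → x ∈ edgeArc pos f → x ∉ edgeArc pos g

namespace GeodesicDrawing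

variable {V : Type} {G : SimpleGraph V} (D : GeodesicDrawing G)

/-- The set of crossing points: common interior points of two distinct edges. -/
def crossingSet : Set E3 :=
  {x | x ∉ Set.range D.pos ∧ ∃ e ∈ G.edgeSet, ∃ f ∈ G.edgeSet, e ≠ f ∧
    x ∈ edgeArc D.pos e ∧ x ∈ edgeArc D.pos f}

/-- The number of crossing points of the drawing. -/
noncomputable def crossings : ℕ := D.crossingSet.ncard

end GeodesicDrawing

end Vale.Agent.P040
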