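import Vale.Agent.P040.Sph.State

/-!
# The inequality obtained by averaging over many periods
-/

namespace Vale.Agent.P040.Zar

namespace Sweep

variable {B : Type*} (S : Sweep B) {blue : B → Prop}

theorem g_per (g : B → B → ℕ) (hg : ∀ a b, g a b = g b a) (s N : ℕ) :
    g (S.e1 (s + N * S.H)) (S.e2 (s + N * S.H)) = g (S.e1 s) (S.e2 s) := by
  induction N with
  | zero => simp
  | succ N ih =>
    obtain ⟨a1, a2⟩ := S.e_anti (s + N * S.H)
    rw [show s + (N + 1) * S.H = s + N * S.H + S.H by ring, a1, a2, hg, ih]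

theorem csum_one_le (l : List B) : csum (fun _ _ => 1) l ≤ l.length := by
  unfold csum conseq
  rw [List.map_const', List.sum_replicate, List.length_zip]
  simp

theorem ssum_one (l : List B) : ssum (fun _ _ => 1) l = l.length := by
  unfold ssum sides
  rw [List.map_const', List.sum_replicate, List.length_zip]
  simp

variable [Fintype B]

/-- the contribution of the low flips -/
noncomputable def lw (blue : B → Prop) (g : B → B → ℕ) (s : ℕ) : ℕ := by
  classical exact if S.Low blue s then g (S.e1 s) (S.e2 s) else 0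

theorem lw_add (hcnt : cnt (fun y => ¬ blue y) = cnt blue + 1) (g : B → B → ℕ)
    (hg : ∀ a b, g a b = g b a) (s : ℕ) :
    S.lw blue g s + S.lw blue g (s + S.H) = g (S.e1 s) (S.e2 s) := by
  classical
  obtain ⟨a1, a2⟩ := S.e_anti s
  unfold lw
  rw [a1, a2]
  by_cases hl : S.Low blue s
  · simp [hl, S.low_anti hcnt]
  · simp [hl, S.low_anti hcnt, hg (S.e2 s)]

theorem sum_lw (hcnt : cnt (fun y => ¬ blue y) = cnt blue + 1) (g : B → B → ℕ)
    (hg : ∀ a b, g a b = g b a) (N : ℕ) :
    ∑ s ∈ Finset.range (N * (2 * S.H)), S.lw blue g s =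
      N * ∑ s ∈ Finset.range S.H, g (S.e1 s) (S.e2 s) := by
  induction N with
  | zero => simp
  | succ N ih =>
    rw [show (N + 1) * (2 * S.H) = N * (2 * S.H) + S.H + S.H by ring, Finset.sum_range_add,
      Finset.sum_range_add, ih, add_assoc, ← Finset.sum_add_distrib, Nat.add_mul, one_mul]
    congr 1
    apply Finset.sum_congr rfl
    intro s _
    have h1 := S.lw_add hcnt g hg (N * (2 * S.H) + s)
    rw [show N * (2 * S.H) + S.H + s = N * (2 * S.H) + s + S.H by ring, h1]
    have h2 := S.g_per g hg s (2 * N)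
    rw [show s + 2 * N * S.H = N * (2 * S.H) + s by ring] at h2
    exact h2

/-- The main inequality. -/
theorem main_ineq (hH : 0 < S.H) (hcnt : cnt (fun y => ¬ blue y) = cnt blue + 1)
    (f : B → B → ℕ) (hf : ∀ a b, f a b = f b a) (d : ℕ)
    (hpoly : ∀ L, S.PolyGood blue L → (L.length - 2) * d ≤ ssum f L) :
    d * S.H ≤ ∑ s ∈ Finset.range S.H, f (S.e1 s) (S.e2 s) +
      d * ∑ s ∈ Finset.range S.H, (by
        classical exact if ¬ (blue (S.e1 s) ↔ blue (S.e2 s)) then 1 else 0) := by
  classical
  have hcnt' : cnt blue < cnt (fun y => ¬ blue y) := by omega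
  set F := ∑ s ∈ Finset.range S.H, f (S.e1 s) (S.e2 s) with hF
  set Mx := ∑ s ∈ Finset.range S.H, (if ¬ (blue (S.e1 s) ↔ blue (S.e2 s)) then 1 else 0) with hMx
  -- constants
  set K1 := ∑ P, (S.hist0 blue P).elim 0 (Tok.val f) with hK1
  set K2 := ∑ P, (S.hist0 blue P).elim 0 (fun _ => 1) with hK2
  set K3 := ((S.finG blue S.H).map (ssum (fun _ _ => 1))).sum with hK3
  set K4 := Fintype.card (B × B) * (2 * Fintype.card B) with hK4
  have key : ∀ N, 1 ≤ N → N * (d * S.H) ≤ N * (F + d * Mx) + (K1 + d * (K2 + K3 + K4)) := by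
    intro N hN
    have hge : S.H ≤ N * (2 * S.H) := by nlinarith
    obtain ⟨k, hk⟩ := Nat.exists_eq_add_of_le hge
    obtain ⟨Ls, hL1, hL2⟩ := S.fin_good hH hcnt' k
    rw [← hk] at hL1
    have hst := S.state2 hH hcnt' (N * (2 * S.H))
    have e1 := hst.sum f hf
    have e2 := hst.sum (fun _ _ => 1) (fun _ _ => rfl)
    have e3 := hst.count
    have l1 := S.sum_lw hcnt f hf N
    have l2 := S.sum_lw hcnt (fun _ _ => 1) (fun _ _ => rfl) N
    have l3 := S.sum_lw hcnt (fun a b => if ¬ (blue a ↔ blue b) then 1 else 0)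
      (fun a b => by simp only [iff_comm]) N
    unfold lw at l1 l2 l3
    rw [hL1] at e1 e2 e3
    simp only [List.map_append, List.sum_append] at e1 e2
    rw [l1, ← hF] at e1
    rw [l2] at e2
    have l3' : (∑ s ∈ Finset.range (N * (2 * S.H)),
        if S.Low blue s ∧ ¬ (blue (S.e1 s) ↔ blue (S.e2 s)) then 1 else 0) = N * Mx := by
      rw [hMx, ← l3]
      apply Finset.sum_congr rfl
      intro s _
      by_cases c1 : S.Low blue s
      · simp [c1]
      · simp [c1]
    rw [l3'] at e3
    simp only [List.length_append] at e3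
    simp only [Finset.sum_const, Finset.card_range, smul_eq_mul, mul_one] at e2
    -- the alive tokens
    have hal : ∑ P, (S.histG blue (N * (2 * S.H)) P).elim 0 (Tok.val (fun _ _ => 1)) ≤ K4 := by
      rw [hK4, ← smul_eq_mul (a := Fintype.card (B × B))]
      apply Finset.sum_le_card_nsmul
      intro P _
      cases hT : S.histG blue (N * (2 * S.H)) P with
      | none => simp
      | some T =>
        obtain ⟨tb, hI⟩ := S.real_of_ge hH hcnt' hge hT
        simp only [Option.elim_none, Option.elim_some, Tok.val]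
        have h1 : csum (fun _ _ => 1) T.ys ≤ T.ys.length := csum_one_le _
        have h2 : csum (fun _ _ => 1) T.xs ≤ T.xs.length := csum_one_le _
        have h3 : T.ys.length ≤ Fintype.card B := hI.nodup_y.length_le_card
        have h4 : T.xs.length ≤ Fintype.card B := hI.nodup_x.length_le_card
        obtain ⟨l, hl⟩ := hI.hdy
        have h5 : csum (fun _ _ => 1) T.ys + 1 ≤ T.ys.length := by
          rw [hl]
          unfold csum conseq
          rw [List.map_const', List.sum_replicate, List.length_zip]
          simp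
        omega
    have hsum1 : (Ls.map (ssum (fun _ _ => 1))).sum = (Ls.map List.length).sum := by
      congr 1
      apply List.map_congr_left
      intro L _
      exact ssum_one L
    have hlen : (Ls.map (fun L => (L.length - 2))).sum + 2 * Ls.length =
        (Ls.map List.length).sum := by
      have h3 : ∀ L ∈ Ls, 2 ≤ L.length := fun L hL => by
        obtain ⟨_, hlen, _⟩ := hL2 L hL; omega
      clear e1 e2 e3 hL1 hL2 hsum1
      induction Ls with
      | nil => simp
      | cons L Ls ih =>
        simp only [List.map_cons, List.sum_cons, List.length_cons]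
        have := ih (fun L' hL' => h3 L' (by simp [hL']))
        have := h3 L (by simp)
        omega
    have hsum : (Ls.map (fun L => (L.length - 2) * d)).sum ≤ (Ls.map (ssum f)).sum :=
      List.sum_le_sum (fun L hL => hpoly L (hL2 L hL))
    rw [List.sum_map_mul_right] at hsum
    rw [hsum1] at e2
    have q1 : N * S.H ≤ (Ls.map (fun L => (L.length - 2))).sum + (K2 + N * Mx) + K3 + K4 := by
      have := hK3
      omega
    have q2 : d * (N * S.H) ≤ d * ((Ls.map (fun L => (L.length - 2))).sum + (K2 + N * Mx) + K3 + K4) :=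
      Nat.mul_le_mul_left d q1
    have q3 : (Ls.map (fun L => (L.length - 2))).sum * d ≤ K1 + N * F := by omega
    calc N * (d * S.H) = d * (N * S.H) := by ring
      _ ≤ _ := q2
      _ = (Ls.map (fun L => (L.length - 2))).sum * d + d * (K2 + N * Mx + K3 + K4) := by ring
      _ ≤ (K1 + N * F) + d * (K2 + N * Mx + K3 + K4) := by omega
      _ = _ := by ring
  by_contra hcon
  rw [not_le] at hcon
  have h1 := key (K1 + d * (K2 + K3 + K4) + 1) (by omega)
  have h2 : (K1 + d * (K2 + K3 + K4) + 1) * (F + d * Mx + 1) ≤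
      (K1 + d * (K2 + K3 + K4) + 1) * (d * S.H) := Nat.mul_le_mul_left _ hcon
  rw [Nat.mul_add, Nat.mul_one] at h2
  omega

end Sweep

end Vale.Agent.P040.Zar
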