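import Vale.Agent.P040.Bdl.B1
import Vale.Agent.P040.Sph.Cesaro

/-!
# The lower bound for an odd number of vectors in general position in space
-/

namespace Vale.Agent.P040.Zar

theorem det3_swap12' (u v w : V3) : det3 u v w = - det3 v u w := by
  simp only [det3]; ring

theorem crP_symm' {m : ℕ} (a : Fin m → V3) (u w : V3) : crP a u w = crP a w u := by
  unfold crP
  congr 1
  ext p
  simp only [Set.mem_ofPred_eq]
  rw [det3_swap12' w u (a p.1), det3_swap12' w u (a p.2), neg_mul_neg,
    mul_comm (det3 (a p.1) (a p.2) u)]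

theorem card_prs' (n : ℕ) : 2 * (prs n).card = n * (n - 1) := by
  have h := sum_sym (m := n) (fun _ _ => 1) (fun _ _ => rfl)
  simp only [Finset.sum_const, Finset.card_univ, Fintype.card_fin, smul_eq_mul, mul_one] at h
  rcases n with _ | n
  · simp at h ⊢; omega
  · simp only [Nat.add_sub_cancel]
    have : (n + 1) * (n + 1) = (n + 1) * n + (n + 1) := by ring
    omega

theorem det3_uv3 (bp bq br : V3) (h1 : bp 0 ≠ 0) (h2 : bq 0 ≠ 0) (h3 : br 0 ≠ 0) (t : ℝ) :
    det3 bp bq br = bp 0 * bq 0 * br 0 *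
      (((bq 1 / bq 0 - t * (bq 2 / bq 0)) - (bp 1 / bp 0 - t * (bp 2 / bp 0))) *
          (br 2 / br 0 - bp 2 / bp 0) -
       ((br 1 / br 0 - t * (br 2 / br 0)) - (bp 1 / bp 0 - t * (bp 2 / bp 0))) *
          (bq 2 / bq 0 - bp 2 / bp 0)) := by
  unfold det3
  field_simp
  ring

theorem core_sph {m h : ℕ} (a' : Fin m → V3) (B : Fin (2 * h + 1) → V3)
    (hp : ∀ i, B i 0 ≠ 0)
    (hhalf : (Finset.univ.filter (fun i => B i 0 < 0)).card = h)
    (hu' : Function.Injective (fun i => B i 2 / B i 0))
    (hgp : ∀ i j k, i ≠ j → i ≠ k → j ≠ k → det3 (B i) (B j) (B k) ≠ 0)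
    (hg1 : ∀ i j, i ≠ j → ∀ z, det3 (B i) (B j) (a' z) ≠ 0)
    (hg2 : ∀ z w, z ≠ w → ∀ i, det3 (a' z) (a' w) (B i) ≠ 0) :
    dz m * dz (2 * h + 1) ≤ ∑ p ∈ prs (2 * h + 1), crP a' (B p.1) (B p.2) := by
  classical
  rcases Nat.eq_zero_or_pos h with h0 | hpos
  · subst h0
    simp [dz]
  set u : Fin (2 * h + 1) → ℝ := fun i => B i 2 / B i 0 with hu_def
  set v : Fin (2 * h + 1) → ℝ := fun i => B i 1 / B i 0 with hv_def
  have hu : Function.Injective u := hu'
  have hdet : ∀ (t : ℝ) (p q r : Fin (2 * h + 1)), det3 (B p) (B q) (B r) =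
      B p 0 * B q 0 * B r 0 * (((v q - t * u q) - (v p - t * u p)) * (u r - u p) -
        ((v r - t * u r) - (v p - t * u p)) * (u q - u p)) :=
    fun t p q r => det3_uv3 (B p) (B q) (B r) (hp p) (hp q) (hp r) t
  have hGP : GP u v := by
    intro p q r hpq hpr hqr hT
    have h1 := TT_diff u v (fun hh => hpq (hu hh)) (TT u v p q)
    have h2 := TT_diff u v (fun hh => hpr (hu hh)) (TT u v p q)
    rw [← hT, sub_self, mul_zero] at h2
    rw [sub_self, mul_zero] at h1
    have hd := hdet (TT u v p q) p q r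
    have e1 : (v q - TT u v p q * u q) - (v p - TT u v p q * u p) = 0 := by linarith
    have e2 : (v r - TT u v p q * u r) - (v p - TT u v p q * u p) = 0 := by linarith
    rw [e1, e2] at hd
    simp only [zero_mul, sub_self, mul_zero] at hd
    exact hgp p q r hpq hpr hqr hd
  obtain ⟨H, τ, hτ⟩ := exists_tau u v
  have hH : 0 < H := by
    have : (⟨0, by omega⟩ : Fin (2 * h + 1)) ≠ ⟨1, by omega⟩ := by simp
    exact lt_of_le_of_lt (Nat.zero_le _) (hτ.lt _ _ this)
  obtain ⟨P, Q, hPQ⟩ := exists_PQ hu hτ hH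
  let S := sweepOf hu hGP hτ hH P Q hPQ
  let blue : Fin (2 * h + 1) → Prop := fun i => B i 0 < 0
  have hblue : ∀ i, blue i ↔ B i 0 < 0 := fun i => Iff.rfl
  have hred : ∀ i, ¬ blue i ↔ 0 < B i 0 := fun i => by
    rw [hblue, not_lt]
    constructor
    · intro h1; exact lt_of_le_of_ne h1 (Ne.symm (hp i))
    · intro h1; exact h1.le
  have hcb1 : (Finset.univ.filter blue).card = h := by
    refine Eq.trans ?_ hhalf
    congr 1
  have hcb : Sweep.cnt blue = h := by
    unfold Sweep.cnt
    refine Eq.trans ?_ hcb1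
    congr 1
  have hcr : Sweep.cnt (fun i => ¬ blue i) = h + 1 := by
    have h1 := Finset.card_filter_add_card_filter_not (s := (Finset.univ : Finset (Fin (2 * h + 1))))
      (p := blue)
    have h3 : (Finset.univ.filter (fun i => ¬ blue i)).card = h + 1 := by
      rw [hcb1, Finset.card_univ, Fintype.card_fin] at h1; omega
    unfold Sweep.cnt
    refine Eq.trans ?_ h3
    congr 1
    ext i
    simp
  have hS : S.H = H := rfl
  -- the flipped pairs
  have hpairs : ∀ s, S.e1 s ≠ S.e2 s ∧ τ (S.e1 s) (S.e2 s) = s % H := by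
    intro s
    have hr := Nat.mod_lt s hH
    obtain ⟨h1, h2⟩ := hPQ _ hr
    refine ⟨S.e_ne s, ?_⟩
    show τ (if Even (s / H) then P (s % H) else Q (s % H))
      (if Even (s / H) then Q (s % H) else P (s % H)) = s % H
    split_ifs
    · exact h2
    · rw [hτ.symm]; exact h2
  have hpairs' : ∀ s < H, S.e1 s ≠ S.e2 s ∧ τ (S.e1 s) (S.e2 s) = s := by
    intro s hs
    have := hpairs s
    rw [Nat.mod_eq_of_lt hs] at this
    exact this
  have horient : ∀ s, (Even (s / H) → u (S.e2 s) < u (S.e1 s)) ∧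
      (¬ Even (s / H) → u (S.e1 s) < u (S.e2 s)) := by
    intro s
    have hr := Nat.mod_lt s hH
    obtain ⟨h1, h2⟩ := hPQ _ hr
    constructor
    · intro hp
      show u (if Even (s / H) then Q (s % H) else P (s % H)) <
        u (if Even (s / H) then P (s % H) else Q (s % H))
      simp only [hp, if_true]; exact h1
    · intro hp
      show u (if Even (s / H) then P (s % H) else Q (s % H)) <
        u (if Even (s / H) then Q (s % H) else P (s % H))
      simp only [hp, if_false]; exact h1
  -- the polygons are convex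
  have hconv : ∀ L, S.PolyGood blue L → ConvexPoly B L := by
    intro L hL
    obtain ⟨g1, g2, g3⟩ := hL
    refine ⟨g1, g2, ?_⟩
    intro s hs z hz hz1 hz2
    obtain ⟨σ, hcor, hgood⟩ := g3 s hs
    have hg := hgood z hz hz1 hz2
    set a := S.e1 σ with ha_def
    set b := S.e2 σ with hb_def
    have hza : z ≠ a ∧ z ≠ b := by
      rcases hcor with ⟨_, c1, c2⟩ | ⟨_, c1, c2⟩
      · rw [c1] at hz1; rw [c2] at hz2; exact ⟨hz2, hz1⟩
      · rw [c1] at hz1; rw [c2] at hz2; exact ⟨hz1, hz2⟩
    obtain ⟨hab, hσ⟩ := hpairs σ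
    obtain ⟨ex1, ex2⟩ := ltT_exact hGP hu hτ σ hab hσ hza.1 hza.2
    obtain ⟨o1, o2⟩ := horient σ
    set t0 := TT u v a b with ht0
    have hfab := TT_diff u v (fun hh => hab (hu hh)) t0
    rw [← ht0, sub_self, mul_zero] at hfab
    -- the key sign
    have key : (u a - u b) * (B z 0 * ((v z - t0 * u z) - (v a - t0 * u a))) < 0 := by
      have hfz : (v z - t0 * u z) - (v a - t0 * u a) ≠ 0 := by
        rw [TT_diff u v (fun hh => hza.1 (hu hh)) t0]
        apply mul_ne_zero (sub_ne_zero.2 (fun hh => hza.1 (hu hh)))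
        apply sub_ne_zero.2
        rw [TT_symm u v z a]
        exact (hGP a z b hza.1.symm hab hza.2)
      by_cases hev : Even (σ / H)
      · have h1 : 0 < u a - u b := sub_pos.2 (o1 hev)
        apply mul_neg_of_pos_of_neg h1
        by_cases hbz : blue z
        · have h2 : ltT u H τ σ z a := hg.1 hbz
          rw [ex1 hev] at h2
          exact mul_neg_of_neg_of_pos ((hblue z).1 hbz) h2
        · have h2 : ltT u H τ σ a z := hg.2 hbz
          have h3 : ¬ ltT u H τ σ z a := ltT_asymm hτ h2
          rw [ex1 hev, not_lt] at h3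
          exact mul_neg_of_pos_of_neg ((hred z).1 hbz) (lt_of_le_of_ne h3 hfz)
      · have h1 : u a - u b < 0 := sub_neg.2 (o2 hev)
        apply mul_neg_of_neg_of_pos h1
        by_cases hbz : blue z
        · have h2 : ltT u H τ σ z a := hg.1 hbz
          rw [ex2 hev] at h2
          exact mul_pos_of_neg_of_neg ((hblue z).1 hbz) h2
        · have h2 : ltT u H τ σ a z := hg.2 hbz
          have h3 : ¬ ltT u H τ σ z a := ltT_asymm hτ h2
          rw [ex2 hev, not_lt] at h3
          exact mul_pos ((hred z).1 hbz) (lt_of_le_of_ne h3 (Ne.symm hfz))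
    have hd := hdet t0 a b z
    have e1 : (v b - t0 * u b) - (v a - t0 * u a) = 0 := by linarith
    rw [e1] at hd
    have hd2 : det3 (B a) (B b) (B z) = (B a 0 * B b 0) *
        ((u a - u b) * (B z 0 * ((v z - t0 * u z) - (v a - t0 * u a)))) := by
      rw [hd]; ring
    rcases hcor with ⟨c0, c1, c2⟩ | ⟨c0, c1, c2⟩
    · rw [c1, c2] at c0 ⊢
      have h1 : 0 < B a 0 * B b 0 := by
        by_cases hb : blue b
        · exact mul_pos_of_neg_of_neg ((hblue a).1 (c0.1 hb)) ((hblue b).1 hb)
        · exact mul_pos ((hred a).1 (fun hh => hb (c0.2 hh))) ((hred b).1 hb)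
      have h2 : det3 (B b) (B a) (B z) = - det3 (B a) (B b) (B z) := by
        simp only [det3]; ring
      show 0 < det3 (B b) (B a) (B z)
      rw [h2, hd2]
      have := mul_neg_of_pos_of_neg h1 key
      linarith
    · rw [c1, c2] at c0 ⊢
      have h1 : B a 0 * B b 0 < 0 := by
        by_cases ha : blue a
        · have hb : ¬ blue b := fun hb => c0 (iff_of_true ha hb)
          exact mul_neg_of_neg_of_pos ((hblue a).1 ha) ((hred b).1 hb)
        · have hb : blue b := by
            by_contra hb; exact c0 (iff_of_false ha hb)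
          exact mul_neg_of_pos_of_neg ((hred a).1 ha) ((hblue b).1 hb)
      show 0 < det3 (B a) (B b) (B z)
      rw [hd2]
      exact mul_pos_of_neg_of_neg h1 key
  have hsides_ne : ∀ L, S.PolyGood blue L → ∀ s ∈ sides L, s.1 ≠ s.2 := by
    intro L hL s hs hne
    obtain ⟨hnd, hlen, _⟩ := hL
    obtain ⟨i, hi, hget⟩ := List.getElem_of_mem hs
    have hil : i < L.length := by
      simp [sides] at hi; exact hi
    have hg : s = (L[i], L[(i + 1) % L.length]'(Nat.mod_lt _ (by omega))) := by
      rw [← hget]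
      simp [sides, List.getElem_zip, List.getElem_rotate]
    rw [hg] at hne
    simp only at hne
    have := (hnd.getElem_inj_iff).1 hne
    rcases Nat.lt_or_ge (i + 1) L.length with h1 | h1
    · rw [Nat.mod_eq_of_lt h1] at this; omega
    · have h3 : i + 1 = L.length := by omega
      rw [h3, Nat.mod_self] at this; omega
  have main := S.main_ineq (blue := blue) hH (by rw [hcb, hcr])
    (fun i j => crP a' (B i) (B j)) (fun i j => crP_symm' a' _ _) (dz m) (by
      intro L hL
      exact polygon_lemma a' B L (hconv L hL)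
        (fun s hs z => hg1 s.1 s.2 (hsides_ne L hL s hs) z)
        (fun z w hzw i _ => hg2 z w hzw i))
  rw [hS, hτ.sum (fun i j => crP a' (B i) (B j)) (fun i j => crP_symm' a' _ _) S.e1 S.e2
    hpairs'] at main
  -- the number of mixed pairs
  have hmix : (∑ s ∈ Finset.range H, (if ¬ (blue (S.e1 s) ↔ blue (S.e2 s)) then 1 else 0)) =
      h * (h + 1) := by
    have h1 := hτ.sum (fun a b => if ¬ (blue a ↔ blue b) then 1 else 0)
      (fun a b => by
        by_cases g1 : blue a <;> by_cases g2 : blue b <;> simp [g1, g2]) S.e1 S.e2 hpairs'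
    have h2 := mixed_count blue
    have h4 : (Finset.univ.filter (fun i => ¬ blue i)).card = h + 1 := by
      refine Eq.trans ?_ hcr
      unfold Sweep.cnt
      congr 1
      ext i
      simp
    rw [hcb1, h4] at h2
    exact h1.trans h2
  have hHval : 2 * H = (2 * h + 1) * (2 * h) := by
    have h1 := hτ.sum (fun _ _ => 1) (fun _ _ => rfl) S.e1 S.e2 hpairs'
    simp only [Finset.sum_const, Finset.card_range, smul_eq_mul, mul_one] at h1
    have h2 := card_prs' (2 * h + 1)
    rw [Nat.add_sub_cancel] at h2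
    rw [h1, ← h2]
    rfl
  have hdz : dz (2 * h + 1) = h * h := by
    unfold dz
    have h5 : (2 * h + 1) / 2 = h := by omega
    have h6 : (2 * h + 1 - 1) / 2 = h := by omega
    rw [h5, h6]
  have main' : dz m * H ≤ (∑ p ∈ prs (2 * h + 1), crP a' (B p.1) (B p.2)) +
      dz m * (h * (h + 1)) := by
    refine main.trans (le_of_eq ?_)
    congr 2
  have hH2 : H = h * h + h * (h + 1) := by
    have : 2 * H = 2 * (h * h + h * (h + 1)) := by rw [hHval]; ring
    omega
  rw [hdz]
  rw [hH2, Nat.mul_add] at main'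
  omega

end Vale.Agent.P040.Zar
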