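import Vale.Agent.P040.Bdl.B1
import Vale.Agent.P040.Sph.Geom

/-!
# A halving plane, and the lower bound for vectors in general position
-/

namespace Vale.Agent.P040.Zar.Asm

open Finset

theorem divt (c : ℕ → ℕ) (N h : ℕ) (hstep : ∀ k < N, c (k + 1) ≤ c k + 1)
    (h0 : c 0 ≤ h) (hN : h ≤ c N) : ∃ k ≤ N, c k = h := by
  classical
  have hex : ∃ k, h ≤ c k := ⟨N, hN⟩
  have h1 := Nat.find_spec hex
  have h2 : Nat.find hex ≤ N := Nat.find_min' hex hN
  refine ⟨Nat.find hex, h2, le_antisymm ?_ h1⟩
  rcases Nat.eq_zero_or_pos (Nat.find hex) with h3 | h3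
  · rw [h3]; exact h0
  · have h4 := Nat.find_min hex (m := Nat.find hex - 1) (by omega)
    have h5 := hstep (Nat.find hex - 1) (by omega)
    rw [Nat.sub_add_cancel h3] at h5
    omega

theorem exists_shear {h : ℕ} (p r : Fin (2 * h + 1) → ℝ) (hr : ∀ i, r i ≠ 0)
    (hinj : Function.Injective (fun i => - p i / r i)) :
    ∃ s : ℝ, (∀ i, p i + s * r i ≠ 0) ∧
      (univ.filter (fun i => p i + s * r i < 0)).card = h := by
  classical
  set ρ : Fin (2 * h + 1) → ℝ := fun i => - p i / r i with hρ
  have hfac : ∀ i s, p i + s * r i = r i * (s - ρ i) := by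
    intro i s
    have := hr i
    simp only [hρ]
    field_simp
    ring
  set σ := Tuple.sort ρ with hσ
  have hmono : Monotone (ρ ∘ σ) := Tuple.monotone_sort ρ
  have hlt : ∀ i j, (σ.symm i) < (σ.symm j) → ρ i < ρ j := by
    intro i j hij
    have h1 := hmono hij.le
    simp only [Function.comp_apply, Equiv.apply_symm_apply] at h1
    refine lt_of_le_of_ne h1 ?_
    intro h2
    have := hinj h2
    rw [this] at hij
    exact lt_irrefl _ hij
  let St : ℕ → Finset (Fin (2 * h + 1)) := fun k =>
    univ.filter (fun i => ((σ.symm i).1 < k ∧ r i < 0) ∨ (k ≤ (σ.symm i).1 ∧ 0 < r i))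
  let c : ℕ → ℕ := fun k => (St k).card
  have hstep : ∀ k, k < 2 * h + 1 → c (k + 1) ≤ c k + 1 ∧ c k ≤ c (k + 1) + 1 := by
    intro k hk
    have hd : ∀ i, i ≠ σ ⟨k, hk⟩ → (i ∈ St (k + 1) ↔ i ∈ St k) := by
      intro i hi
      have hne : (σ.symm i).1 ≠ k := by
        intro h1
        apply hi
        have : σ.symm i = ⟨k, hk⟩ := Fin.ext h1
        rw [← this, Equiv.apply_symm_apply]
      simp only [St, mem_filter, mem_univ, true_and]
      have e1 : (σ.symm i).1 < k + 1 ↔ (σ.symm i).1 < k := by omega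
      have e2 : k + 1 ≤ (σ.symm i).1 ↔ k ≤ (σ.symm i).1 := by omega
      rw [e1, e2]
    constructor
    · have : St (k + 1) ⊆ insert (σ ⟨k, hk⟩) (St k) := by
        intro i hi
        rw [mem_insert]
        by_cases h1 : i = σ ⟨k, hk⟩
        · exact Or.inl h1
        · exact Or.inr ((hd i h1).1 hi)
      exact (card_le_card this).trans (card_insert_le _ _)
    · have : St k ⊆ insert (σ ⟨k, hk⟩) (St (k + 1)) := by
        intro i hi
        rw [mem_insert]
        by_cases h1 : i = σ ⟨k, hk⟩
        · exact Or.inl h1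
        · exact Or.inr ((hd i h1).2 hi)
      exact (card_le_card this).trans (card_insert_le _ _)
  have hends : c 0 + c (2 * h + 1) = 2 * h + 1 := by
    have e1 : St 0 = univ.filter (fun i => 0 < r i) := by
      ext i; simp [St]
    have e2 : St (2 * h + 1) = univ.filter (fun i => ¬ 0 < r i) := by
      ext i
      have h1 := (σ.symm i).2
      have h2 : ¬ (2 * h + 1 ≤ (σ.symm i).1) := by omega
      simp only [St, mem_filter, mem_univ, true_and, h1, h2, false_and, or_false, not_lt]
      exact ⟨fun h3 => h3.le, fun h3 => lt_of_le_of_ne h3 (hr i)⟩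
    have h3 := card_filter_add_card_filter_not (s := (univ : Finset (Fin (2 * h + 1))))
      (p := fun i => 0 < r i)
    rw [card_univ, Fintype.card_fin] at h3
    show (St 0).card + (St (2 * h + 1)).card = _
    rw [e1, e2]
    exact h3
  obtain ⟨k, hk, hck⟩ : ∃ k ≤ 2 * h + 1, c k = h := by
    rcases le_or_gt (c 0) h with h1 | h1
    · exact divt c (2 * h + 1) h (fun k hk => (hstep k hk).1) h1 (by omega)
    · obtain ⟨k, hk, hck⟩ := divt (fun k => c (2 * h + 1 - k)) (2 * h + 1) h
        (fun k hk => by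
          have := (hstep (2 * h + 1 - (k + 1)) (by omega)).2
          have e : 2 * h + 1 - (k + 1) + 1 = 2 * h + 1 - k := by omega
          rw [e] at this
          omega)
        (by simp only [Nat.sub_zero]; omega) (by simp only [Nat.sub_self]; omega)
      exact ⟨2 * h + 1 - k, by omega, hck⟩
  obtain ⟨s, hs1, hs2⟩ := Order.exists_between_finsets
    ((univ.filter (fun i => (σ.symm i).1 < k)).image ρ)
    ((univ.filter (fun i => ¬ (σ.symm i).1 < k)).image ρ) (by
      intro x hx y hy
      simp only [mem_image, mem_filter, mem_univ, true_and] at hx hy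
      obtain ⟨i, hi, rfl⟩ := hx
      obtain ⟨j, hj, rfl⟩ := hy
      apply hlt
      rw [Fin.lt_def]
      omega)
  have hs1' : ∀ i, (σ.symm i).1 < k → ρ i < s := fun i hi =>
    hs1 _ (mem_image_of_mem _ (by simp [hi]))
  have hs2' : ∀ i, ¬ (σ.symm i).1 < k → s < ρ i := fun i hi =>
    hs2 _ (mem_image_of_mem _ (by simp only [mem_filter, mem_univ, true_and]; exact hi))
  refine ⟨s, ?_, ?_⟩
  · intro i
    rw [hfac]
    apply mul_ne_zero (hr i)
    apply sub_ne_zero.2
    by_cases hi : (σ.symm i).1 < k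
    · exact (hs1' i hi).ne'
    · exact (hs2' i hi).ne
  · refine Eq.trans ?_ hck
    show _ = (St k).card
    congr 1
    ext i
    simp only [St, mem_filter, mem_univ, true_and]
    rw [hfac]
    by_cases hi : (σ.symm i).1 < k
    · have h1 : 0 < s - ρ i := sub_pos.2 (hs1' i hi)
      have h2 : ¬ (k ≤ (σ.symm i).1) := by omega
      simp only [hi, h2, true_and, false_and, or_false]
      exact ⟨fun h3 => by
        by_contra h4
        exact absurd h3 (not_lt.2 (mul_nonneg (not_lt.1 h4) h1.le)),
        fun h3 => mul_neg_of_neg_of_pos h3 h1⟩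
    · have h1 : s - ρ i < 0 := sub_neg.2 (hs2' i hi)
      have h2 : k ≤ (σ.symm i).1 := by omega
      simp only [hi, h2, true_and, false_and, false_or]
      exact ⟨fun h3 => by
        by_contra h4
        exact absurd h3 (not_lt.2 (mul_nonneg_of_nonpos_of_nonpos (not_lt.1 h4) h1.le)),
        fun h3 => mul_neg_of_pos_of_neg h3 h1⟩

/-- a shear -/
def shear (s : ℝ) (v : V3) : V3 := ![v 0 + s * v 2, v 1, v 2]

theorem det3_shear (s : ℝ) (a b c : V3) :
    det3 (shear s a) (shear s b) (shear s c) = det3 a b c := by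
  simp [det3, shear]
  ring

theorem crP_shear {m : ℕ} (s : ℝ) (a : Fin m → V3) (u w : V3) :
    crP (fun i => shear s (a i)) (shear s u) (shear s w) = crP a u w := by
  unfold crP
  simp only [det3_shear]

theorem zar_sph_odd {m h : ℕ} (a : Fin m → V3) (b : Fin (2 * h + 1) → V3)
    (hr : ∀ i, b i 2 ≠ 0) (hpr : ∀ i j, i ≠ j → b i 0 * b j 2 ≠ b j 0 * b i 2)
    (hgp : ∀ i j k, i ≠ j → i ≠ k → j ≠ k → det3 (b i) (b j) (b k) ≠ 0)
    (h1 : ∀ i j, i ≠ j → ∀ z, det3 (b i) (b j) (a z) ≠ 0)
    (h2 : ∀ z w, z ≠ w → ∀ i, det3 (a z) (a w) (b i) ≠ 0) :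
    dz m * dz (2 * h + 1) ≤ TT a b := by
  classical
  obtain ⟨s, hs1, hs2⟩ := exists_shear (fun i => b i 0) (fun i => b i 2) hr (by
    intro i j hij
    by_contra hne
    apply hpr i j hne
    simp only at hij
    rw [div_eq_div_iff (hr i) (hr j)] at hij
    linarith)
  have key := core_sph (fun z => shear s (a z)) (fun i => shear s (b i))
    (by intro i; simpa [shear] using hs1 i)
    (by
      refine Eq.trans ?_ hs2
      congr 1)
    (by
      intro i j hij
      by_contra hne
      apply hpr i j hne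
      simp only [shear, Matrix.cons_val] at hij
      have e1 := hs1 i
      have e2 := hs1 j
      rw [div_eq_div_iff e1 e2] at hij
      linarith)
    (by intro i j k hij hik hjk; rw [det3_shear]; exact hgp i j k hij hik hjk)
    (by intro i j hij z; rw [det3_shear]; exact h1 i j hij z)
    (by intro z w hzw i; rw [det3_shear]; exact h2 z w hzw i)
  simp only [crP_shear] at key
  exact key

/-- The lower bound for vectors in general position. -/
theorem zar_sph {m n : ℕ} (a : Fin m → V3) (b : Fin n → V3)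
    (hr : ∀ i, b i 2 ≠ 0) (hpr : ∀ i j, i ≠ j → b i 0 * b j 2 ≠ b j 0 * b i 2)
    (hgp : ∀ i j k, i ≠ j → i ≠ k → j ≠ k → det3 (b i) (b j) (b k) ≠ 0)
    (h1 : ∀ i j, i ≠ j → ∀ z, det3 (b i) (b j) (a z) ≠ 0)
    (h2 : ∀ z w, z ≠ w → ∀ i, det3 (a z) (a w) (b i) ≠ 0) :
    dz m * dz n ≤ TT a b := by
  obtain ⟨h, rfl | rfl⟩ := Nat.even_or_odd' n
  · rcases Nat.eq_zero_or_pos h with rfl | hpos
    · simp [dz]
    · obtain ⟨r, rfl⟩ : ∃ r, h = r + 1 := ⟨h - 1, by omega⟩
      have key : ∀ j : Fin (2 * r + 1 + 1), dz m * dz (2 * r + 1) ≤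
          TT a (fun i => b (j.succAbove i)) := by
        intro j
        have hinj : Function.Injective (j.succAbove) := Fin.succAbove_right_injective
        exact zar_sph_odd a (fun i => b (j.succAbove i)) (fun i => hr _)
          (fun x y hxy => hpr _ _ (fun h => hxy (hinj h)))
          (fun x y z hxy hxz hyz => hgp _ _ _ (fun h => hxy (hinj h)) (fun h => hxz (hinj h))
            (fun h => hyz (hinj h)))
          (fun x y hxy z => h1 _ _ (fun h => hxy (hinj h)) z) (fun x y hxy i => h2 x y hxy _)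
      have hs := Finset.sum_le_sum (fun (j : Fin (2 * r + 1 + 1)) (_ : j ∈ Finset.univ) => key j)
      have e1 := avg (N := 2 * r + 1) (fun i j => crP a (b i) (b j))
      have e2 : ∑ j : Fin (2 * r + 1 + 1), TT a (fun i => b (j.succAbove i)) =
          (2 * r + 1 - 1) * TT a b := by
        unfold TT
        exact e1
      rw [e2] at hs
      simp only [Finset.sum_const, Finset.card_univ, Fintype.card_fin, smul_eq_mul] at hs
      have e3 : dz (2 * r + 1) = r * r := by
        unfold dz
        have e8 : (2 * r + 1) / 2 = r := by omega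
        have e9 : (2 * r + 1 - 1) / 2 = r := by omega
        rw [e8, e9]
      have e4 : dz (2 * (r + 1)) = (r + 1) * r := by
        unfold dz
        have e8 : (2 * (r + 1)) / 2 = r + 1 := by omega
        have e9 : (2 * (r + 1) - 1) / 2 = r := by omega
        rw [e8, e9]
      rw [e3, Nat.add_sub_cancel] at hs
      rw [e4]
      rcases Nat.eq_zero_or_pos r with hr | hr
      · simp [hr]
      · have h5 : (2 * r) * (dz m * ((r + 1) * r)) ≤ (2 * r) * TT a b := by
          calc (2 * r) * (dz m * ((r + 1) * r)) = (2 * r + 1 + 1) * (dz m * (r * r)) := by ring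
            _ ≤ _ := hs
        exact Nat.le_of_mul_le_mul_left h5 (by omega)
  · exact zar_sph_odd a b hr hpr hgp h1 h2

end Vale.Agent.P040.Zar.Asm
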