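import Mathlib
import Vale.Agent.P040.Bdl.B1
import Vale.Agent.P040.Sph.Halving
import Vale.Agent.P040.Sph.GDrawing

/-!
# Geodesic drawings on the sphere: perturbation to general position
-/

namespace Vale.Agent.P040

namespace GeodesicDrawing

variable {V : Type} {G : SimpleGraph V} (D : GeodesicDrawing G)

theorem crossingSet_finite [Finite V] : D.crossingSet.Finite := by
  have : D.crossingSet ⊆ ⋃ e ∈ G.edgeSet, ⋃ f ∈ {f | f ∈ G.edgeSet ∧ e ≠ f},
      (edgeArc D.pos e \ Set.range D.pos) ∩ (edgeArc D.pos f \ Set.range D.pos) := by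
    rintro x ⟨hx, e, he, f, hf, hef, h1, h2⟩
    simp only [Set.mem_iUnion]
    exact ⟨e, he, f, ⟨hf, hef⟩, ⟨h1, hx⟩, ⟨h2, hx⟩⟩
  apply Set.Finite.subset _ this
  apply Set.Finite.biUnion (Set.toFinite _)
  intro e he
  apply Set.Finite.biUnion (Set.toFinite _)
  rintro f ⟨hf, hef⟩
  exact D.finite e he f hf hef

/-- Two pairs of distinct edges with a common crossing point are equal. -/
theorem pair_unique {x : E3} (hx : x ∉ Set.range D.pos) {e f e' f' : Sym2 V}
    (he : e ∈ G.edgeSet) (hf : f ∈ G.edgeSet) (he' : e' ∈ G.edgeSet) (hf' : f' ∈ G.edgeSet)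
    (hef : e ≠ f) (hef' : e' ≠ f') (h1 : x ∈ edgeArc D.pos e) (h2 : x ∈ edgeArc D.pos f)
    (h3 : x ∈ edgeArc D.pos e')
    (h4 : x ∈ edgeArc D.pos f') : (e = e' ∧ f = f') ∨ (e = f' ∧ f = e') := by
  by_cases c1 : e = e'
  · left
    refine ⟨c1, ?_⟩
    by_contra c2
    subst c1
    exact D.two e he f hf f' hf' hef hef' c2 x hx h1 h2 h4
  · by_cases c2 : f = e'
    · right
      refine ⟨?_, c2⟩
      by_contra c3
      subst c2
      exact D.two f hf e he f' hf' (Ne.symm hef) hef' c3 x hx h2 h1 h4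
    · exact absurd h3 (D.two e he f hf e' he' hef c1 c2 x hx h1 h2)

/-- Two edges without common ends whose arcs meet have a crossing point. -/
theorem exists_crossing {e f : Sym2 V} (he : e ∈ G.edgeSet) (hf : f ∈ G.edgeSet)
    (hef : ∀ v, v ∈ e → v ∉ f) (h : (edgeArc D.pos e ∩ edgeArc D.pos f).Nonempty) :
    ∃ x, x ∉ Set.range D.pos ∧ x ∈ edgeArc D.pos e ∧ x ∈ edgeArc D.pos f := by
  obtain ⟨x, h1, h2⟩ := h
  refine ⟨x, ?_, h1, h2⟩
  rintro ⟨w, rfl⟩
  exact hef w (D.avoid e he w h1) (D.avoid f hf w h2)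

end GeodesicDrawing

namespace Zar.Asm

open Finset Filter Topology

/-- The two cones spanned by `p, q` and by `p', q'` meet only in the origin. -/
def ConeDisj (p q p' q' : V3) : Prop :=
  ∀ s t s' t' : ℝ, 0 ≤ s → 0 ≤ t → 0 ≤ s' → 0 ≤ t' → s • p + t • q = s' • p' + t' • q' →
    s = 0 ∧ t = 0 ∧ s' = 0 ∧ t' = 0

theorem cone_inter (A A' B B' : V3)
    (h1 : 0 < det3 B B' A * det3 B B' A')
    (h2 : 0 < det3 A A' B * det3 A A' B') :
    ¬ ConeDisj A B A' B' ∨ ¬ ConeDisj A B' A' B := by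
  have e1 : det3 B B' A' • A + det3 A A' B' • B = det3 B B' A • A' + det3 A A' B • B' := by
    ext i
    fin_cases i <;> simp [det3] <;> ring
  generalize det3 B B' A = D1 at *
  generalize det3 B B' A' = D2 at *
  generalize det3 A A' B = E1 at *
  generalize det3 A A' B' = E2 at *
  rcases (mul_pos_iff.1 h1) with ⟨d1, d2⟩ | ⟨d1, d2⟩ <;>
    rcases (mul_pos_iff.1 h2) with ⟨f1, f2⟩ | ⟨f1, f2⟩
  · left; intro h
    have := h D2 E2 D1 E1 d2.le f2.le d1.le f1.le e1
    linarith [this.1]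
  · right; intro h
    have e2 : D2 • A + (-E1) • B' = D1 • A' + (-E2) • B := by
      have : D2 • A + -E1 • B' = (D2 • A + E2 • B) - E2 • B - E1 • B' := by module
      rw [this, e1]; module
    have := h D2 (-E1) D1 (-E2) d2.le (by linarith) d1.le (by linarith) e2
    linarith [this.1]
  · right; intro h
    have e2 : (-D2) • A + E1 • B' = (-D1) • A' + E2 • B := by
      have : -D2 • A + E1 • B' = -(D2 • A + E2 • B) + E2 • B + E1 • B' := by module
      rw [this, e1]; module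
    have := h (-D2) E1 (-D1) E2 (by linarith) f1.le (by linarith) f2.le e2
    linarith [this.2.1]
  · left; intro h
    have e2 : (-D2) • A + (-E2) • B = (-D1) • A' + (-E1) • B' := by
      have : -D2 • A + -E2 • B = -(D2 • A + E2 • B) := by module
      rw [this, e1]; module
    have := h (-D2) (-E2) (-D1) (-E1) (by linarith) (by linarith) (by linarith) (by linarith) e2
    linarith [this.1]

/-- Perturbation in the direction of the moment curve. -/
noncomputable def pertS {V : Type} (pos : V → V3) (τ : V → ℝ) (ε : ℝ) (v : V) : V3 :=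
  ![pos v 0 + ε, pos v 1 + ε * τ v, pos v 2 + ε * τ v ^ 2]

theorem cubic_ne {c0 c1 c2 c3 : ℝ} (h : c3 ≠ 0) :
    ∀ᶠ ε : ℝ in 𝓝[>] 0, c0 + c1 * ε + c2 * ε ^ 2 + c3 * ε ^ 3 ≠ 0 := by
  by_cases h0 : c0 = 0
  · filter_upwards [self_mem_nhdsWithin, quad_ne (c0 := c1) (c1 := c2) h] with ε hε hc
    have : (0 : ℝ) < ε := hε
    have e : c0 + c1 * ε + c2 * ε ^ 2 + c3 * ε ^ 3 = ε * (c1 + c2 * ε + c3 * ε ^ 2) := by
      rw [h0]; ring
    rw [e]
    exact mul_ne_zero this.ne' hc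
  · apply eventually_nhdsWithin_of_eventually_nhds
    have : ContinuousAt (fun ε : ℝ => c0 + c1 * ε + c2 * ε ^ 2 + c3 * ε ^ 3) 0 := by fun_prop
    apply this.eventually_ne
    simpa using h0

theorem pertS_det {V : Type} (pos : V → V3) {τ : V → ℝ} (hτ : Function.Injective τ)
    {u v w : V} (huv : u ≠ v) (huw : u ≠ w) (hvw : v ≠ w) :
    ∀ᶠ ε : ℝ in 𝓝[>] 0,
      det3 (pertS pos τ ε u) (pertS pos τ ε v) (pertS pos τ ε w) ≠ 0 := by
  have hc : (τ v - τ u) * (τ w - τ u) * (τ w - τ v) ≠ 0 := by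
    refine mul_ne_zero (mul_ne_zero ?_ ?_) ?_
    · exact sub_ne_zero.2 (fun h => huv (hτ h).symm)
    · exact sub_ne_zero.2 (fun h => huw (hτ h).symm)
    · exact sub_ne_zero.2 (fun h => hvw (hτ h).symm)
  let m : V → V3 := fun v => ![1, τ v, τ v ^ 2]
  have e : ∀ ε : ℝ,
      det3 (pertS pos τ ε u) (pertS pos τ ε v) (pertS pos τ ε w) =
      det3 (pos u) (pos v) (pos w) +
      (det3 (m u) (pos v) (pos w) + det3 (pos u) (m v) (pos w) + det3 (pos u) (pos v) (m w)) * ε +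
      (det3 (pos u) (m v) (m w) + det3 (m u) (pos v) (m w) + det3 (m u) (m v) (pos w)) * ε ^ 2 +
      ((τ v - τ u) * (τ w - τ u) * (τ w - τ v)) * ε ^ 3 := by
    intro ε
    simp [det3, pertS, m]
    ring
  filter_upwards [cubic_ne (c0 := det3 (pos u) (pos v) (pos w))
    (c1 := det3 (m u) (pos v) (pos w) + det3 (pos u) (m v) (pos w) + det3 (pos u) (pos v) (m w))
    (c2 := det3 (pos u) (m v) (m w) + det3 (m u) (pos v) (m w) + det3 (m u) (m v) (pos w)) hc]
    with ε hε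
  rw [e]
  exact hε

theorem pertS_snd {V : Type} (pos : V → V3) {τ : V → ℝ} (hτ : ∀ v, 0 < τ v) (v : V) :
    ∀ᶠ ε : ℝ in 𝓝[>] 0, pertS pos τ ε v 2 ≠ 0 := by
  have hc : τ v ^ 2 ≠ 0 := (pow_pos (hτ v) 2).ne'
  filter_upwards [lin_ne (c0 := pos v 2) hc] with ε hε h
  apply hε
  simp only [pertS, Matrix.cons_val] at h
  linarith

theorem pertS_pair {V : Type} (pos : V → V3) {τ : V → ℝ} (hτ0 : ∀ v, 0 < τ v)
    (hτ : Function.Injective τ) {u v : V} (huv : u ≠ v) :
    ∀ᶠ ε : ℝ in 𝓝[>] 0, pertS pos τ ε u 0 * pertS pos τ ε v 2 ≠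
      pertS pos τ ε v 0 * pertS pos τ ε u 2 := by
  have hc : τ v ^ 2 - τ u ^ 2 ≠ 0 := by
    have h1 : τ v - τ u ≠ 0 := sub_ne_zero.2 (fun h => huv (hτ h).symm)
    have h2 : τ v + τ u ≠ 0 := (add_pos (hτ0 v) (hτ0 u)).ne'
    have h3 : τ v ^ 2 - τ u ^ 2 = (τ v - τ u) * (τ v + τ u) := by ring
    rw [h3]
    exact mul_ne_zero h1 h2
  filter_upwards [quad_ne (c0 := pos u 0 * pos v 2 - pos v 0 * pos u 2)
    (c1 := pos v 2 + pos u 0 * τ v ^ 2 - pos u 2 - pos v 0 * τ u ^ 2) hc] with ε hε h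
  apply hε
  simp only [pertS, Matrix.cons_val] at h
  linear_combination h

theorem pertS_disj {V : Type} (pos : V → V3) (τ : V → ℝ) {u v w z : V}
    (h : ConeDisj (pos u) (pos v) (pos w) (pos z)) :
    ∀ᶠ ε : ℝ in 𝓝[>] 0, ConeDisj (pertS pos τ ε u) (pertS pos τ ε v)
      (pertS pos τ ε w) (pertS pos τ ε z) := by
  apply eventually_nhdsWithin_of_eventually_nhds
  have hK : IsCompact (stdSimplex ℝ (Fin 4)) := isCompact_stdSimplex ℝ (Fin 4)
  have key : ∀ᶠ ε : ℝ in 𝓝 0, ∀ y ∈ stdSimplex ℝ (Fin 4),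
      y 0 • pertS pos τ ε u + y 1 • pertS pos τ ε v ≠
      y 2 • pertS pos τ ε w + y 3 • pertS pos τ ε z := by
    apply hK.eventually_forall_of_forall_eventually
      (P := fun ε y => y 0 • pertS pos τ ε u + y 1 • pertS pos τ ε v ≠
      y 2 • pertS pos τ ε w + y 3 • pertS pos τ ε z)
    intro y hy
    have hcp : ∀ v, Continuous (fun q : ℝ × (Fin 4 → ℝ) => pertS pos τ q.1 v) := by
      intro v
      unfold pertS
      apply continuous_pi
      intro i
      fin_cases i <;> simp <;> fun_prop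
    have hopen : IsOpen {q : ℝ × (Fin 4 → ℝ) |
        q.2 0 • pertS pos τ q.1 u + q.2 1 • pertS pos τ q.1 v ≠
        q.2 2 • pertS pos τ q.1 w + q.2 3 • pertS pos τ q.1 z} := by
      apply isOpen_ne_fun
      · exact ((by fun_prop : Continuous (fun q : ℝ × (Fin 4 → ℝ) => q.2 0)).smul (hcp u)).add
          ((by fun_prop : Continuous (fun q : ℝ × (Fin 4 → ℝ) => q.2 1)).smul (hcp v))
      · exact ((by fun_prop : Continuous (fun q : ℝ × (Fin 4 → ℝ) => q.2 2)).smul (hcp w)).add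
          ((by fun_prop : Continuous (fun q : ℝ × (Fin 4 → ℝ) => q.2 3)).smul (hcp z))
    apply hopen.mem_nhds
    simp only [Set.mem_ofPred_eq]
    intro heq
    have p0 : ∀ v, pertS pos τ 0 v = pos v := by
      intro v
      ext i
      fin_cases i <;> simp [pertS]
    rw [p0, p0, p0, p0] at heq
    have h5 := h _ _ _ _ (hy.1 0) (hy.1 1) (hy.1 2) (hy.1 3) heq
    have h6 := hy.2
    rw [Fin.sum_univ_four, h5.1, h5.2.1, h5.2.2.1, h5.2.2.2] at h6
    norm_num at h6
  filter_upwards [key] with ε hε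
  intro s t s' t' hs ht hs' ht' heq
  by_contra hcon
  have hpos : 0 < s + t + s' + t' := by
    by_contra h1
    apply hcon
    refine ⟨?_, ?_, ?_, ?_⟩ <;> linarith
  set r := (s + t + s' + t')⁻¹ with hr
  have hr0 : 0 < r := inv_pos.2 hpos
  refine hε ![r * s, r * t, r * s', r * t'] ⟨?_, ?_⟩ ?_
  · intro i
    fin_cases i <;> simp <;> positivity
  · rw [Fin.sum_univ_four]
    simp only [Matrix.cons_val]
    rw [← mul_add, ← mul_add, ← mul_add, hr, inv_mul_cancel₀ hpos.ne']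
  · simp only [Matrix.cons_val]
    have e1 : (r * s) • pertS pos τ ε u + (r * t) • pertS pos τ ε v =
      r • (s • pertS pos τ ε u + t • pertS pos τ ε v) := by module
    have e2 : (r * s') • pertS pos τ ε w + (r * t') • pertS pos τ ε z =
      r • (s' • pertS pos τ ε w + t' • pertS pos τ ε z) := by module
    rw [e1, e2, heq]

/-- If the arcs are disjoint then the cones meet only in the origin. -/
theorem coneDisj_of_arcs {p q p' q' : E3} (hp : ‖p‖ = 1) (hq : ‖q‖ = 1) (hp' : ‖p'‖ = 1)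
    (hq' : ‖q'‖ = 1) (hpq : p ≠ -q) (hpq' : p' ≠ -q')
    (h : ¬ (geodArc p q ∩ geodArc p' q').Nonempty) :
    ConeDisj (fun i => p i) (fun i => q i) (fun i => p' i) (fun i => q' i) := by
  intro s t s' t' hs ht hs' ht' heq
  have heq' : s • p + t • q = s' • p' + t' • q' := by
    ext i
    have := congrFun heq i
    simpa using this
  have zero : ∀ {p q : E3} {s t : ℝ}, ‖p‖ = 1 → ‖q‖ = 1 → p ≠ -q → 0 ≤ s → 0 ≤ t →
      s • p + t • q = 0 → s = 0 ∧ t = 0 := by
    intro p q s t hp hq hpq hs ht h0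
    have h1 : s • p = -(t • q) := eq_neg_of_add_eq_zero_left h0
    have h2 : s = t := by
      have h3 := congrArg norm h1
      rw [norm_neg, norm_smul, norm_smul, hp, hq, mul_one, mul_one, Real.norm_of_nonneg hs,
        Real.norm_of_nonneg ht] at h3
      exact h3
    by_cases h3 : s = 0
    · exact ⟨h3, h2 ▸ h3⟩
    · exfalso
      apply hpq
      rw [← h2, ← smul_neg] at h1
      exact smul_right_injective _ h3 h1
  by_cases hx : s • p + t • q = 0
  · have h1 := zero hp hq hpq hs ht hx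
    have h2 := zero hp' hq' hpq' hs' ht' (heq' ▸ hx)
    exact ⟨h1.1, h1.2, h2.1, h2.2⟩
  · exfalso
    apply h
    have hn : 0 < ‖s • p + t • q‖ := norm_pos_iff.2 hx
    set r := ‖s • p + t • q‖⁻¹ with hr
    have hr0 : 0 ≤ r := (inv_pos.2 hn).le
    refine ⟨r • (s • p + t • q), ⟨?_, r * s, r * t, mul_nonneg hr0 hs, mul_nonneg hr0 ht, ?_⟩,
      ⟨?_, r * s', r * t', mul_nonneg hr0 hs', mul_nonneg hr0 ht', ?_⟩⟩
    · rw [norm_smul, Real.norm_of_nonneg hr0, hr, inv_mul_cancel₀ hn.ne']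
    · module
    · rw [norm_smul, Real.norm_of_nonneg hr0, hr, inv_mul_cancel₀ hn.ne']
    · rw [heq']; module

end Zar.Asm

end Vale.Agent.P040
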