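import Vale.Agent.P040.Bdl.B1

/-!
# The token process started with tokens of unknown past
-/

namespace Vale.Agent.P040.Zar

namespace Sweep

variable {B : Type*} (S : Sweep B) [Fintype B] (blue : B → Prop)

open Classical in
/-- the tokens alive at time `0`, with a trivial record -/
noncomputable def hist0 : B × B → Option (Tok B) := fun P =>
  if S.M blue 0 P then some ⟨P.1, P.2, [P.1], [P.2]⟩ else none

/-- the histories of the alive tokens at time `t` -/
noncomputable def histG (t : ℕ) : B × B → Option (Tok B) :=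
  Nat.rec (S.hist0 blue) (fun t h => S.step blue t h) t

theorem histG_zero : S.histG blue 0 = S.hist0 blue := rfl

theorem histG_succ (t : ℕ) : S.histG blue (t + 1) = S.step blue t (S.histG blue t) := rfl

open Classical in
/-- the polygons finished before time `t` -/
noncomputable def finG (t : ℕ) : List (List B) :=
  Nat.rec [] (fun t l => if S.Low blue t ∧ blue (S.e1 t) ∧ ¬ blue (S.e2 t) then
    ((S.histG blue t (S.e1 t, S.e2 t)).map (fun T => T.ys.reverse ++ T.xs)).toList ++ l
    else l) t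

theorem finG_zero : S.finG blue 0 = [] := rfl

open Classical in
theorem finG_succ (t : ℕ) : S.finG blue (t + 1) =
    if S.Low blue t ∧ blue (S.e1 t) ∧ ¬ blue (S.e2 t) then
    ((S.histG blue t (S.e1 t, S.e2 t)).map (fun T => T.ys.reverse ++ T.xs)).toList
      ++ S.finG blue t
    else S.finG blue t := rfl

/-- the shape of a record -/
def Sh (P : B × B) (T : Tok B) : Prop :=
  (∃ l, T.ys = P.1 :: l) ∧ (∃ l, T.xs = P.2 :: l) ∧ (∃ l, T.ys = l ++ [T.y0]) ∧
    (∃ l, T.xs = l ++ [T.x0])

/-- the invariant of a token alive at time `0` -/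
structure Ghost (t : ℕ) (P : B × B) (T : Tok B) : Prop where
  M0 : S.M blue 0 (T.y0, T.x0)
  sh : Sh P T
  cy : ∀ s ∈ conseq T.ys, ∃ τ, τ < t ∧ S.e1 τ = s.1 ∧ S.e2 τ = s.2
  cx : ∀ s ∈ conseq T.xs, ∃ τ, τ < t ∧ S.e1 τ = s.2 ∧ S.e2 τ = s.1

variable {blue} {S}

theorem Ghost.lt_H {t : ℕ} {P : B × B} {T : Tok B} (h : S.Ghost blue t P T) (hM : S.M blue t P)
    (ht : t ≤ S.H) : t < S.H := by
  rcases lt_or_eq_of_le ht with h1 | h1
  · exact h1
  exfalso
  obtain ⟨⟨l1, s1⟩, ⟨l2, s2⟩, ⟨l3, s3⟩, ⟨l4, s4⟩⟩ := h.sh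
  have cyR : ∀ s ∈ conseq T.ys, S.lt t s.2 s.1 := by
    intro s hs
    obtain ⟨τ, h2, h3, h4⟩ := h.cy s hs
    rw [← h3, ← h4]
    exact S.window τ t h2 (by omega)
  have cxR : ∀ s ∈ conseq T.xs, S.lt t s.1 s.2 := by
    intro s hs
    obtain ⟨τ, h2, h3, h4⟩ := h.cx s hs
    rw [← h3, ← h4]
    exact S.window τ t h2 (by omega)
  have hy : T.y0 = P.1 ∨ S.lt t T.y0 P.1 := by
    rw [s1] at cyR
    have := chain_head (R := fun a b => S.lt t b a)
      (fun a b c hab hbc => S.trans _ _ _ _ hbc hab) P.1 l1 cyR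
    rw [← s1] at this
    exact this T.y0 (by rw [s3]; simp)
  have hx : T.x0 = P.2 ∨ S.lt t P.2 T.x0 := by
    rw [s2] at cxR
    have := chain_head (R := fun a b => S.lt t a b)
      (fun a b c hab hbc => S.trans _ _ _ _ hab hbc) P.2 l2 cxR
    rw [← s2] at this
    exact this T.x0 (by rw [s4]; simp)
  have h5 : S.lt t T.y0 T.x0 := by
    have h6 : S.lt t T.y0 P.2 := by
      rcases hy with h7 | h7
      · rw [h7]; exact hM.2.2.1
      · exact S.trans _ _ _ _ h7 hM.2.2.1
    rcases hx with h7 | h7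
    · rw [h7]; exact h6
    · exact S.trans _ _ _ _ h6 h7
  have h8 : S.lt 0 T.x0 T.y0 := by
    have := S.anti 0 T.y0 T.x0
    rw [Nat.zero_add, ← h1] at this
    exact this.1 h5
  exact S.asymm h8 h.M0.2.2.1

theorem Ghost.stay {t : ℕ} {P : B × B} {T : Tok B} (h : S.Ghost blue t P T) :
    S.Ghost blue (t + 1) P T where
  M0 := h.M0
  sh := h.sh
  cy := fun s hs => by
    obtain ⟨τ, h1, h2⟩ := h.cy s hs
    exact ⟨τ, by omega, h2⟩
  cx := fun s hs => by
    obtain ⟨τ, h1, h2⟩ := h.cx s hs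
    exact ⟨τ, by omega, h2⟩

theorem Ghost.moveB {t : ℕ} {P : B × B} {T : Tok B} (h : S.Ghost blue t P T)
    (he2 : P.1 = S.e2 t) :
    S.Ghost blue (t + 1) (S.e1 t, P.2) ⟨T.y0, T.x0, S.e1 t :: T.ys, T.xs⟩ where
  M0 := h.M0
  sh := by
    obtain ⟨⟨l1, s1⟩, ⟨l2, s2⟩, ⟨l3, s3⟩, ⟨l4, s4⟩⟩ := h.sh
    exact ⟨⟨T.ys, rfl⟩, ⟨l2, s2⟩, ⟨S.e1 t :: l3, by simp only; rw [s3]; simp⟩, ⟨l4, s4⟩⟩
  cy := by
    intro s hs
    obtain ⟨⟨l1, s1⟩, _⟩ := h.sh
    simp only at hs
    rw [s1, conseq_cons_cons, List.mem_cons] at hs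
    rcases hs with hs | hs
    · exact ⟨t, by omega, by rw [hs], by rw [hs]; exact he2.symm⟩
    · rw [← s1] at hs
      obtain ⟨τ, h1, h2⟩ := h.cy s hs
      exact ⟨τ, by omega, h2⟩
  cx := fun s hs => by
    obtain ⟨τ, h1, h2⟩ := h.cx s hs
    exact ⟨τ, by omega, h2⟩

theorem Ghost.moveR {t : ℕ} {P : B × B} {T : Tok B} (h : S.Ghost blue t P T)
    (he1 : P.2 = S.e1 t) :
    S.Ghost blue (t + 1) (P.1, S.e2 t) ⟨T.y0, T.x0, T.ys, S.e2 t :: T.xs⟩ where
  M0 := h.M0
  sh := by
    obtain ⟨⟨l1, s1⟩, ⟨l2, s2⟩, ⟨l3, s3⟩, ⟨l4, s4⟩⟩ := h.sh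
    exact ⟨⟨l1, s1⟩, ⟨T.xs, rfl⟩, ⟨l3, s3⟩, ⟨S.e2 t :: l4, by simp only; rw [s4]; simp⟩⟩
  cy := fun s hs => by
    obtain ⟨τ, h1, h2⟩ := h.cy s hs
    exact ⟨τ, by omega, h2⟩
  cx := by
    intro s hs
    obtain ⟨_, ⟨l2, s2⟩, _⟩ := h.sh
    simp only at hs
    rw [s2, conseq_cons_cons, List.mem_cons] at hs
    rcases hs with hs | hs
    · exact ⟨t, by omega, by rw [hs]; exact he1.symm, by rw [hs]⟩
    · rw [← s2] at hs
      obtain ⟨τ, h1, h2⟩ := h.cx s hs
      exact ⟨τ, by omega, h2⟩

/-- the invariant of a token, real or ghost -/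
def Inv2 (S : Sweep B) (blue : B → Prop) (t : ℕ) (P : B × B) (T : Tok B) : Prop :=
  (∃ tb, S.Inv blue t tb P T) ∨ (S.Ghost blue t P T ∧ t ≤ S.H)

theorem Inv2.sh {t : ℕ} {P : B × B} {T : Tok B} (h : S.Inv2 blue t P T) : Sh P T := by
  rcases h with ⟨tb, h⟩ | ⟨h, _⟩
  · exact ⟨h.hdy, h.hdx, h.lasty, h.lastx⟩
  · exact h.sh

theorem Inv2.stay {t : ℕ} {P : B × B} {T : Tok B} (h : S.Inv2 blue t P T) (hM : S.M blue t P)
    (hcnt : cnt blue < cnt (fun y => ¬ blue y)) : S.Inv2 blue (t + 1) P T := by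
  rcases h with ⟨tb, h⟩ | ⟨h, ht⟩
  · exact Or.inl ⟨tb, h.stay (h.lt_H hM hcnt)⟩
  · exact Or.inr ⟨h.stay, h.lt_H hM ht⟩

theorem Inv2.moveB {t : ℕ} {P : B × B} {T : Tok B} (h : S.Inv2 blue t P T) (hM : S.M blue t P)
    (hcnt : cnt blue < cnt (fun y => ¬ blue y)) (he2 : P.1 = S.e2 t) (hb : blue (S.e1 t)) :
    S.Inv2 blue (t + 1) (S.e1 t, P.2) ⟨T.y0, T.x0, S.e1 t :: T.ys, T.xs⟩ := by
  rcases h with ⟨tb, h⟩ | ⟨h, ht⟩
  · exact Or.inl ⟨tb, h.moveB hM (h.lt_H hM hcnt) he2 hb⟩
  · exact Or.inr ⟨h.moveB he2, h.lt_H hM ht⟩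

theorem Inv2.moveR {t : ℕ} {P : B × B} {T : Tok B} (h : S.Inv2 blue t P T) (hM : S.M blue t P)
    (hcnt : cnt blue < cnt (fun y => ¬ blue y)) (he1 : P.2 = S.e1 t) (hr : ¬ blue (S.e2 t)) :
    S.Inv2 blue (t + 1) (P.1, S.e2 t) ⟨T.y0, T.x0, T.ys, S.e2 t :: T.xs⟩ := by
  rcases h with ⟨tb, h⟩ | ⟨h, ht⟩
  · exact Or.inl ⟨tb, h.moveR hM (h.lt_H hM hcnt) he1 hr⟩
  · exact Or.inr ⟨h.moveR he1, h.lt_H hM ht⟩

section steps

theorem histG_idle {t : ℕ} (hl : ¬ S.Low blue t) : S.histG blue (t + 1) = S.histG blue t := by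
  simp [histG_succ, step, hl]

theorem finG_idle {t : ℕ} (hl : ¬ (S.Low blue t ∧ blue (S.e1 t) ∧ ¬ blue (S.e2 t))) :
    S.finG blue (t + 1) = S.finG blue t := by
  rw [finG_succ, if_neg hl]

end steps

variable (S) (blue)

/-- the full invariant of the process -/
structure State2 (t : ℕ) : Prop where
  supp : ∀ P, (S.histG blue t P).isSome ↔ S.M blue t P
  inv : ∀ P T, S.histG blue t P = some T → S.Inv2 blue t P T
  sum : ∀ f : B → B → ℕ, (∀ a b, f a b = f b a) →
    ∑ P, (S.histG blue t P).elim 0 (Tok.val f) + ((S.finG blue t).map (ssum f)).sum =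
      ∑ P, (S.hist0 blue P).elim 0 (Tok.val f) +
      ∑ s ∈ Finset.range t, by classical exact if S.Low blue s then f (S.e1 s) (S.e2 s) else 0
  count : ∑ P, (S.histG blue t P).elim 0 (fun _ => 1) + 2 * (S.finG blue t).length =
      ∑ P, (S.hist0 blue P).elim 0 (fun _ => 1) +
      ∑ s ∈ Finset.range t, by
        classical exact if S.Low blue s ∧ ¬ (blue (S.e1 s) ↔ blue (S.e2 s)) then 1 else 0

variable {blue}

theorem State2.step_idle {t : ℕ} (h : S.State2 blue t) (hl : ¬ S.Low blue t)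
    (hM : ∀ P, S.M blue (t + 1) P ↔ S.M blue t P)
    (hcnt : cnt blue < cnt (fun y => ¬ blue y)) : S.State2 blue (t + 1) where
  supp := by
    intro P; rw [histG_idle hl, hM]; exact h.supp P
  inv := by
    intro P T hT
    rw [histG_idle hl] at hT
    have : S.M blue t P := (h.supp P).1 (by rw [hT]; rfl)
    exact (h.inv P T hT).stay this hcnt
  sum := by
    intro f hf
    rw [histG_idle hl, finG_idle (by tauto), Finset.sum_range_succ, ← add_assoc, ← h.sum f hf]
    simp [hl]
  count := by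
    rw [histG_idle hl, finG_idle (by tauto), Finset.sum_range_succ, ← add_assoc, ← h.count]
    simp [hl]

theorem State2.step_birth {t : ℕ} (h : S.State2 blue t) (hl : S.Low blue t)
    (h1 : ¬ blue (S.e1 t)) (h2 : blue (S.e2 t)) (hH : 0 < S.H)
    (hcnt : cnt blue < cnt (fun y => ¬ blue y)) : S.State2 blue (t + 1) := by
  classical
  obtain ⟨m1, m2, m3⟩ := S.M_RB h1 h2
  have hh : S.histG blue (t + 1) = Function.update (S.histG blue t) (S.e2 t, S.e1 t)
      (some ⟨S.e2 t, S.e1 t, [S.e2 t], [S.e1 t]⟩) := by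
    simp only [histG_succ, step, hl, h1, h2, if_true, if_false]
  have hf : S.finG blue (t + 1) = S.finG blue t := finG_idle (by tauto)
  have hnone : S.histG blue t (S.e2 t, S.e1 t) = none := by
    have := h.supp (S.e2 t, S.e1 t)
    rw [← Option.not_isSome_iff_eq_none, this]; exact m1
  constructor
  · intro P
    rw [hh]
    by_cases hP : P = (S.e2 t, S.e1 t)
    · rw [hP, Function.update_self]; simp [m2, hl]
    · rw [Function.update_of_ne hP, h.supp, m3 P hP]
  · intro P T hT
    rw [hh] at hT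
    by_cases hP : P = (S.e2 t, S.e1 t)
    · rw [hP, Function.update_self] at hT
      have hT' := Option.some.inj hT
      rw [hP, ← hT']
      exact Or.inl ⟨t, Inv.birth S hH h1 h2 hl⟩
    · rw [Function.update_of_ne hP] at hT
      have : S.M blue t P := (h.supp P).1 (by rw [hT]; rfl)
      exact (h.inv P T hT).stay this hcnt
  · intro f hff
    rw [hf, Finset.sum_range_succ, ← add_assoc, ← h.sum f hff, hh]
    have := sum_upd (fun o : Option (Tok B) => o.elim 0 (Tok.val f)) (S.histG blue t)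
      (S.e2 t, S.e1 t) (some ⟨S.e2 t, S.e1 t, [S.e2 t], [S.e1 t]⟩)
    simp only [hnone, Option.elim_none, Option.elim_some] at this
    simp only [hl, if_true]
    have h3 : Tok.val f ⟨S.e2 t, S.e1 t, [S.e2 t], [S.e1 t]⟩ = f (S.e1 t) (S.e2 t) := by
      simp [Tok.val, csum]
    rw [h3] at this
    try simp only [Option.elim_none, Option.elim_some]
    omega
  · rw [hf, Finset.sum_range_succ, ← add_assoc, ← h.count, hh]
    have := sum_upd (fun o : Option (Tok B) => o.elim 0 (fun _ => 1)) (S.histG blue t)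
      (S.e2 t, S.e1 t) (some ⟨S.e2 t, S.e1 t, [S.e2 t], [S.e1 t]⟩)
    simp only [hnone, Option.elim_none, Option.elim_some] at this
    simp only [hl, h1, h2, true_and, false_iff, not_true, not_false_eq_true, if_true]
    try simp only [Option.elim_none, Option.elim_some]
    omega

theorem State2.step_death {t : ℕ} (h : S.State2 blue t) (hl : S.Low blue t)
    (h1 : blue (S.e1 t)) (h2 : ¬ blue (S.e2 t))
    (hcnt : cnt blue < cnt (fun y => ¬ blue y)) : S.State2 blue (t + 1) := by
  classical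
  obtain ⟨m1, m2, m3⟩ := S.M_BR h1 h2
  have hh : S.histG blue (t + 1) = Function.update (S.histG blue t) (S.e1 t, S.e2 t) none := by
    simp only [histG_succ, step, hl, h1, h2, if_true, if_false]
  have hMt : S.M blue t (S.e1 t, S.e2 t) := m2.2 hl
  obtain ⟨T, hT⟩ : ∃ T, S.histG blue t (S.e1 t, S.e2 t) = some T := by
    have := (h.supp (S.e1 t, S.e2 t)).2 hMt
    exact Option.isSome_iff_exists.1 this
  have hf : S.finG blue (t + 1) = (T.ys.reverse ++ T.xs) :: S.finG blue t := by
    rw [finG_succ, if_pos ⟨hl, h1, h2⟩, hT]; rfl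
  have hI := h.inv _ _ hT
  constructor
  · intro P
    rw [hh]
    by_cases hP : P = (S.e1 t, S.e2 t)
    · rw [hP, Function.update_self]; simp [m1]
    · rw [Function.update_of_ne hP, h.supp, m3 P hP]
  · intro P T' hT'
    rw [hh] at hT'
    by_cases hP : P = (S.e1 t, S.e2 t)
    · rw [hP, Function.update_self] at hT'
      exact absurd hT' (by simp)
    · rw [Function.update_of_ne hP] at hT'
      have : S.M blue t P := (h.supp P).1 (by rw [hT']; rfl)
      exact (h.inv P T' hT').stay this hcnt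
  · intro f hff
    rw [hf, Finset.sum_range_succ, ← add_assoc, ← h.sum f hff, hh]
    have := sum_upd (fun o : Option (Tok B) => o.elim 0 (Tok.val f)) (S.histG blue t)
      (S.e1 t, S.e2 t) none
    simp only [hT, Option.elim_none, Option.elim_some] at this
    simp only [hl, if_true]
    obtain ⟨⟨l, hl1⟩, ⟨l', hl'⟩, ⟨k, hk⟩, ⟨k', hk'⟩⟩ := hI.sh
    have h3 := ssum_poly f hff (S.e1 t) (S.e2 t) T.y0 T.x0 T.ys T.xs l l' k k' hl1 hl' hk hk'
    have h4 : Tok.val f T = csum f T.ys + csum f T.xs + f T.x0 T.y0 := rfl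
    simp only [Option.elim_none, Option.elim_some, List.map_cons, List.sum_cons]
    omega
  · rw [hf, Finset.sum_range_succ, ← add_assoc, ← h.count, hh]
    have := sum_upd (fun o : Option (Tok B) => o.elim 0 (fun _ => 1)) (S.histG blue t)
      (S.e1 t, S.e2 t) none
    simp only [hT, Option.elim_none, Option.elim_some] at this
    simp only [hl, h1, h2, true_and, iff_false, not_true, not_false_eq_true, if_true]
    simp only [Option.elim_none, Option.elim_some, List.length_cons]
    omega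

theorem State2.step_BB {t : ℕ} (h : S.State2 blue t) (hl : S.Low blue t)
    (h1 : blue (S.e1 t)) (h2 : blue (S.e2 t))
    (hcnt : cnt blue < cnt (fun y => ¬ blue y)) : S.State2 blue (t + 1) := by
  classical
  obtain ⟨x, hx, hxr, m1, m2, m3, m4, m5⟩ := S.M_BB_low (le_of_lt hcnt) h1 h2 hl
  have hxs := S.xst_eq hx hxr
  have hh : S.histG blue (t + 1) =
      Function.update (Function.update (S.histG blue t) (S.e2 t, x) none) (S.e1 t, x)
        ((S.histG blue t (S.e2 t, x)).map (fun T => ⟨T.y0, T.x0, S.e1 t :: T.ys, T.xs⟩)) := by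
    simp only [histG_succ, step, hl, h1, h2, if_true, hxs]
  obtain ⟨T, hT⟩ : ∃ T, S.histG blue t (S.e2 t, x) = some T :=
    Option.isSome_iff_exists.1 ((h.supp _).2 m1)
  have hnone : S.histG blue t (S.e1 t, x) = none := by
    rw [← Option.not_isSome_iff_eq_none, h.supp]; exact m2
  rw [hT] at hh
  simp only [Option.map_some] at hh
  have hf : S.finG blue (t + 1) = S.finG blue t := finG_idle (by tauto)
  have hI := h.inv _ _ hT
  have hne : (S.e1 t, x) ≠ (S.e2 t, x) := by
    intro hc; exact S.e_ne t (congrArg Prod.fst hc)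
  constructor
  · intro P
    rw [hh]
    by_cases hP : P = (S.e1 t, x)
    · rw [hP, Function.update_self]; simp [m3]
    · rw [Function.update_of_ne hP]
      by_cases hP2 : P = (S.e2 t, x)
      · rw [hP2, Function.update_self]; simp [m4]
      · rw [Function.update_of_ne hP2, h.supp, m5 P hP hP2]
  · intro P T' hT'
    rw [hh] at hT'
    by_cases hP : P = (S.e1 t, x)
    · rw [hP, Function.update_self] at hT'
      have hT'' := Option.some.inj hT'
      rw [hP, ← hT'']
      exact hI.moveB m1 hcnt rfl h1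
    · rw [Function.update_of_ne hP] at hT'
      by_cases hP2 : P = (S.e2 t, x)
      · rw [hP2, Function.update_self] at hT'
        exact absurd hT' (by simp)
      · rw [Function.update_of_ne hP2] at hT'
        have : S.M blue t P := (h.supp P).1 (by rw [hT']; rfl)
        exact (h.inv P T' hT').stay this hcnt
  · intro f hff
    rw [hf, Finset.sum_range_succ, ← add_assoc, ← h.sum f hff, hh]
    have s1 := sum_upd (fun o : Option (Tok B) => o.elim 0 (Tok.val f))
      (Function.update (S.histG blue t) (S.e2 t, x) none)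
      (S.e1 t, x) (some ⟨T.y0, T.x0, S.e1 t :: T.ys, T.xs⟩)
    have s2 := sum_upd (fun o : Option (Tok B) => o.elim 0 (Tok.val f)) (S.histG blue t)
      (S.e2 t, x) none
    rw [Function.update_of_ne hne, hnone] at s1
    rw [hT] at s2
    simp only [Option.elim_none, Option.elim_some] at s1 s2
    simp only [hl, if_true]
    obtain ⟨⟨l, hl1⟩, _⟩ := hI.sh
    have h3 : Tok.val f ⟨T.y0, T.x0, S.e1 t :: T.ys, T.xs⟩ =
        f (S.e1 t) (S.e2 t) + Tok.val f T := by
      simp only [Tok.val]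
      rw [hl1, csum_cons_cons]
      ring
    rw [h3] at s1
    try simp only [Option.elim_none, Option.elim_some]
    omega
  · rw [hf, Finset.sum_range_succ, ← add_assoc, ← h.count, hh]
    have s1 := sum_upd (fun o : Option (Tok B) => o.elim 0 (fun _ => 1))
      (Function.update (S.histG blue t) (S.e2 t, x) none)
      (S.e1 t, x) (some ⟨T.y0, T.x0, S.e1 t :: T.ys, T.xs⟩)
    have s2 := sum_upd (fun o : Option (Tok B) => o.elim 0 (fun _ => 1)) (S.histG blue t)
      (S.e2 t, x) none
    rw [Function.update_of_ne hne, hnone] at s1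
    rw [hT] at s2
    simp only [Option.elim_none, Option.elim_some] at s1 s2
    simp only [hl, h1, h2, not_true, and_false, if_false]
    try simp only [Option.elim_none, Option.elim_some]
    omega

theorem State2.step_RR {t : ℕ} (h : S.State2 blue t) (hl : S.Low blue t)
    (h1 : ¬ blue (S.e1 t)) (h2 : ¬ blue (S.e2 t))
    (hcnt : cnt blue < cnt (fun y => ¬ blue y)) : S.State2 blue (t + 1) := by
  classical
  obtain ⟨y, hy, hyr, m1, m2, m3, m4, m5⟩ := S.M_RR_low h1 h2 hl
  have hys := S.yst_eq hy hyr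
  have hh : S.histG blue (t + 1) =
      Function.update (Function.update (S.histG blue t) (y, S.e1 t) none) (y, S.e2 t)
        ((S.histG blue t (y, S.e1 t)).map (fun T => ⟨T.y0, T.x0, T.ys, S.e2 t :: T.xs⟩)) := by
    simp only [histG_succ, step, hl, h1, h2, if_true, if_false, hys]
  obtain ⟨T, hT⟩ : ∃ T, S.histG blue t (y, S.e1 t) = some T :=
    Option.isSome_iff_exists.1 ((h.supp _).2 m1)
  have hnone : S.histG blue t (y, S.e2 t) = none := by
    rw [← Option.not_isSome_iff_eq_none, h.supp]; exact m2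
  rw [hT] at hh
  simp only [Option.map_some] at hh
  have hf : S.finG blue (t + 1) = S.finG blue t := finG_idle (by tauto)
  have hI := h.inv _ _ hT
  have hne : (y, S.e2 t) ≠ (y, S.e1 t) := by
    intro hc; exact S.e_ne t (congrArg Prod.snd hc).symm
  constructor
  · intro P
    rw [hh]
    by_cases hP : P = (y, S.e2 t)
    · rw [hP, Function.update_self]; simp [m3]
    · rw [Function.update_of_ne hP]
      by_cases hP2 : P = (y, S.e1 t)
      · rw [hP2, Function.update_self]; simp [m4]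
      · rw [Function.update_of_ne hP2, h.supp, m5 P hP2 hP]
  · intro P T' hT'
    rw [hh] at hT'
    by_cases hP : P = (y, S.e2 t)
    · rw [hP, Function.update_self] at hT'
      have hT'' := Option.some.inj hT'
      rw [hP, ← hT'']
      exact hI.moveR m1 hcnt rfl h2
    · rw [Function.update_of_ne hP] at hT'
      by_cases hP2 : P = (y, S.e1 t)
      · rw [hP2, Function.update_self] at hT'
        exact absurd hT' (by simp)
      · rw [Function.update_of_ne hP2] at hT'
        have : S.M blue t P := (h.supp P).1 (by rw [hT']; rfl)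
        exact (h.inv P T' hT').stay this hcnt
  · intro f hff
    rw [hf, Finset.sum_range_succ, ← add_assoc, ← h.sum f hff, hh]
    have s1 := sum_upd (fun o : Option (Tok B) => o.elim 0 (Tok.val f))
      (Function.update (S.histG blue t) (y, S.e1 t) none)
      (y, S.e2 t) (some ⟨T.y0, T.x0, T.ys, S.e2 t :: T.xs⟩)
    have s2 := sum_upd (fun o : Option (Tok B) => o.elim 0 (Tok.val f)) (S.histG blue t)
      (y, S.e1 t) none
    rw [Function.update_of_ne hne, hnone] at s1
    rw [hT] at s2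
    simp only [Option.elim_none, Option.elim_some] at s1 s2
    simp only [hl, if_true]
    obtain ⟨_, ⟨l, hl1⟩, _⟩ := hI.sh
    have h3 : Tok.val f ⟨T.y0, T.x0, T.ys, S.e2 t :: T.xs⟩ =
        f (S.e1 t) (S.e2 t) + Tok.val f T := by
      simp only [Tok.val]
      rw [hl1, csum_cons_cons, hff (S.e2 t)]
      ring
    rw [h3] at s1
    try simp only [Option.elim_none, Option.elim_some]
    omega
  · rw [hf, Finset.sum_range_succ, ← add_assoc, ← h.count, hh]
    have s1 := sum_upd (fun o : Option (Tok B) => o.elim 0 (fun _ => 1))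
      (Function.update (S.histG blue t) (y, S.e1 t) none)
      (y, S.e2 t) (some ⟨T.y0, T.x0, T.ys, S.e2 t :: T.xs⟩)
    have s2 := sum_upd (fun o : Option (Tok B) => o.elim 0 (fun _ => 1)) (S.histG blue t)
      (y, S.e1 t) none
    rw [Function.update_of_ne hne, hnone] at s1
    rw [hT] at s2
    simp only [Option.elim_none, Option.elim_some] at s1 s2
    simp only [hl, h1, h2, not_true, and_false, if_false]
    try simp only [Option.elim_none, Option.elim_some]
    omega

/-- the state at all times -/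
theorem state2 (hH : 0 < S.H) (hcnt : cnt blue < cnt (fun y => ¬ blue y)) (t : ℕ) :
    S.State2 blue t := by
  induction t with
  | zero =>
    constructor
    · intro P
      rw [histG_zero]
      unfold hist0
      by_cases hP : S.M blue 0 P <;> simp [hP]
    · intro P T hT
      rw [histG_zero] at hT
      unfold hist0 at hT
      by_cases hP : S.M blue 0 P
      · simp only [hP, if_true, Option.some.injEq] at hT
        right
        refine ⟨?_, Nat.zero_le _⟩
        subst hT
        exact ⟨hP, ⟨⟨[], rfl⟩, ⟨[], rfl⟩, ⟨[], rfl⟩, ⟨[], rfl⟩⟩, by simp, by simp⟩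
      · simp [hP] at hT
    · intro f _; simp [histG_zero, finG_zero]
    · simp [histG_zero, finG_zero]
  | succ t ih =>
    by_cases hl : S.Low blue t
    · by_cases h1 : blue (S.e1 t)
      · by_cases h2 : blue (S.e2 t)
        · exact ih.step_BB S hl h1 h2 hcnt
        · exact ih.step_death S hl h1 h2 hcnt
      · by_cases h2 : blue (S.e2 t)
        · exact ih.step_birth S hl h1 h2 hH hcnt
        · exact ih.step_RR S hl h1 h2 hcnt
    · refine ih.step_idle S hl ?_ hcnt
      by_cases h1 : blue (S.e1 t)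
      · by_cases h2 : blue (S.e2 t)
        · exact S.M_BB_high h1 h2 hl
        · obtain ⟨m1, m2, m3⟩ := S.M_BR h1 h2
          intro P
          by_cases hP : P = (S.e1 t, S.e2 t)
          · rw [hP]; simp [m1, m2, hl]
          · exact m3 P hP
      · by_cases h2 : blue (S.e2 t)
        · obtain ⟨m1, m2, m3⟩ := S.M_RB h1 h2
          intro P
          by_cases hP : P = (S.e2 t, S.e1 t)
          · rw [hP]; simp [m1, m2, hl]
          · exact m3 P hP
        · exact S.M_RR_high h1 h2 hl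

/-- after half a period all alive tokens are real -/
theorem real_of_ge (hH : 0 < S.H) (hcnt : cnt blue < cnt (fun y => ¬ blue y)) {t : ℕ}
    (ht : S.H ≤ t) {P : B × B} {T : Tok B} (hT : S.histG blue t P = some T) :
    ∃ tb, S.Inv blue t tb P T := by
  have hst := S.state2 hH hcnt t
  rcases hst.inv P T hT with h | ⟨h, h2⟩
  · exact h
  · exfalso
    have hM : S.M blue t P := (hst.supp P).1 (by rw [hT]; rfl)
    have := h.lt_H hM h2
    omega

/-- the polygons finished after half a period are good -/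
theorem fin_good (hH : 0 < S.H) (hcnt : cnt blue < cnt (fun y => ¬ blue y)) (k : ℕ) :
    ∃ Ls, S.finG blue (S.H + k) = Ls ++ S.finG blue S.H ∧ ∀ L ∈ Ls, S.PolyGood blue L := by
  induction k with
  | zero => exact ⟨[], by simp, by simp⟩
  | succ k ih =>
    obtain ⟨Ls, h1, h2⟩ := ih
    by_cases hd : S.Low blue (S.H + k) ∧ blue (S.e1 (S.H + k)) ∧ ¬ blue (S.e2 (S.H + k))
    · have hst := S.state2 hH hcnt (S.H + k)
      obtain ⟨m1, m2, m3⟩ := S.M_BR hd.2.1 hd.2.2
      have hMt : S.M blue (S.H + k) (S.e1 (S.H + k), S.e2 (S.H + k)) := m2.2 hd.1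
      obtain ⟨T, hT⟩ : ∃ T, S.histG blue (S.H + k) (S.e1 (S.H + k), S.e2 (S.H + k)) = some T :=
        Option.isSome_iff_exists.1 ((hst.supp _).2 hMt)
      obtain ⟨tb, hI⟩ := S.real_of_ge hH hcnt (by omega) hT
      refine ⟨(T.ys.reverse ++ T.xs) :: Ls, ?_, ?_⟩
      · rw [← add_assoc, finG_succ, if_pos hd, hT, h1]; rfl
      · intro L hL
        rw [List.mem_cons] at hL
        rcases hL with hL | hL
        · rw [hL]
          exact S.polyGood_of_inv hI hMt (hI.lt_H hMt hcnt)
        · exact h2 L hL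
    · refine ⟨Ls, ?_, h2⟩
      rw [← add_assoc, finG_idle hd, h1]

end Sweep

end Vale.Agent.P040.Zar
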